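import Mathlib

/-!
# Definitions for the Birch and Swinnerton-Dyer formula over `ℚ`

All definitions are for an arbitrary Weierstrass curve `E` over `ℚ`.
-/

namespace Vale.Agent.P014

open WeierstrassCurve
open scoped Classical

/-- `E` is given by a global minimal Weierstrass equation: it is integral and its discriminant has
the least absolute value among all integral equations of the same curve. -/
def GlobalMinimal (E : WeierstrassCurve ℚ) : Prop :=
  E.IsIntegral ℤ ∧ ∀ C : VariableChange ℚ, (C • E).IsIntegral ℤ → |E.Δ| ≤ |(C • E).Δ|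

/-- `L` is the Hasse-Weil `L`-function of `E`: it is entire and for `re s > 3/2` it is the sum of
the Dirichlet series `E.LFunction` of Mathlib (the Euler product with all finite Euler
factors). -/
def IsHasseWeil (E : WeierstrassCurve ℚ) (L : ℂ → ℂ) : Prop :=
  Differentiable ℂ L ∧
    ∀ s : ℂ, 3 / 2 < s.re → LSeriesHasSum (fun n => (E.LFunction n : ℂ)) s (L s)

/-- The polynomial `4x³ + b₂x² + 2b₄x + b₆`, equal to `(2y + a₁x + a₃)²` on the curve. -/
noncomputable def psi (E : WeierstrassCurve ℚ) (x : ℝ) : ℝ :=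
  4 * x ^ 3 + (E.b₂ : ℝ) * x ^ 2 + 2 * (E.b₄ : ℝ) * x + (E.b₆ : ℝ)

/-- `Ω_E`, the integral of `|dx / (2y + a₁x + a₃)|` over `E(ℝ)` (all real components): above each
real `x` with `psi E x > 0` there are two real points, with `2y + a₁x + a₃ = ± √(psi E x)`. -/
noncomputable def realPeriod (E : WeierstrassCurve ℚ) : ℝ :=
  ∫ x in {x : ℝ | 0 < psi E x}, 2 / Real.sqrt (psi E x)

/-- The point `P` of `E(ℚ_p)` has nonsingular reduction for the (integral) equation `E`: it is the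
point at infinity, or reduces to it, or one of the partial derivatives of the equation is a unit
at `P`. -/
def NonsingularReduction (E : WeierstrassCurve ℚ) (p : ℕ) [Fact p.Prime] :
    (E⁄ℚ_[p]).toAffine.Point → Prop
  | 0 => True
  | .some x y _ => 1 < ‖x‖ ∨
      1 ≤ ‖(E.a₁ : ℚ_[p]) * y - (3 * x ^ 2 + 2 * (E.a₂ : ℚ_[p]) * x + (E.a₄ : ℚ_[p]))‖ ∨
      1 ≤ ‖2 * y + (E.a₁ : ℚ_[p]) * x + (E.a₃ : ℚ_[p])‖

/-- The Tamagawa number `c_p = [E(ℚ_p) : E₀(ℚ_p)]` of the (minimal) equation `E`. -/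
noncomputable def tamagawa (E : WeierstrassCurve ℚ) (p : ℕ) [Fact p.Prime] : ℕ :=
  (AddSubgroup.closure {P : (E⁄ℚ_[p]).toAffine.Point | NonsingularReduction E p P}).index

/-- The product of all Tamagawa numbers. -/
noncomputable def tamagawaProduct (E : WeierstrassCurve ℚ) : ℕ :=
  ∏ᶠ p : Nat.Primes, haveI : Fact (p : ℕ).Prime := ⟨p.2⟩; tamagawa E p

/-- The number of torsion points of `E(ℚ)`. -/
noncomputable def torsionOrder (E : WeierstrassCurve ℚ) : ℕ :=
  Nat.card (AddCommGroup.torsion E.toAffine.Point)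

/-- The absolute Galois group of `ℚ`. -/
abbrev GQ : Type := AlgebraicClosure ℚ ≃ₐ[ℚ] AlgebraicClosure ℚ

/-- The group `E(ℚ̄)`. -/
abbrev Pbar (E : WeierstrassCurve ℚ) : Type := (E⁄(AlgebraicClosure ℚ)).toAffine.Point

/-- The action of the absolute Galois group on `E(ℚ̄)`. -/
noncomputable def act (E : WeierstrassCurve ℚ) (σ : GQ) : Pbar E →+ Pbar E :=
  Affine.Point.map (W' := E) (σ : AlgebraicClosure ℚ →ₐ[ℚ] AlgebraicClosure ℚ)

/-- The restriction of the cocycle `c` to the absolute Galois group of the extension `K` of `ℚ` is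
a coboundary. (For an embedding `ι` of `ℚ̄` into `K̄` and `τ` in `Gal(K̄/K)`, the only `σ` with
`ι ∘ σ = τ ∘ ι` is the restriction of `τ` to `ℚ̄`.) -/
def LocallyTrivial (E : WeierstrassCurve ℚ) (K : Type) [Field K] [Algebra ℚ K]
    (c : GQ → Pbar E) : Prop :=
  ∀ ι : AlgebraicClosure ℚ →ₐ[ℚ] AlgebraicClosure K,
    ∃ P : (E⁄(AlgebraicClosure K)).toAffine.Point,
      ∀ (τ : AlgebraicClosure K ≃ₐ[K] AlgebraicClosure K) (σ : GQ), (∀ x, ι (σ x) = τ (ι x)) →
        Affine.Point.map (W' := E) ι (c σ) =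
          Affine.Point.map (W' := E) (τ : AlgebraicClosure K →ₐ[K] AlgebraicClosure K) P - P

/-- The continuous 1-cocycles of the absolute Galois group of `ℚ` with values in the discrete
module `E(ℚ̄)` whose restrictions to all completions of `ℚ` are coboundaries. -/
noncomputable def shaCocycles (E : WeierstrassCurve ℚ) : AddSubgroup (GQ → Pbar E) where
  carrier := {c | IsLocallyConstant c ∧ (∀ σ τ, c (σ * τ) = c σ + act E σ (c τ)) ∧
    LocallyTrivial E ℝ c ∧ ∀ (p : ℕ) [Fact p.Prime], LocallyTrivial E ℚ_[p] c}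
  zero_mem' := by
    refine ⟨IsLocallyConstant.const 0, fun σ τ => by simp, fun ι => ⟨0, ?_⟩,
      fun p _ ι => ⟨0, ?_⟩⟩ <;> intro τ σ _ <;> simp
  add_mem' := by
    rintro c d ⟨hc1, hc2, hc3, hc4⟩ ⟨hd1, hd2, hd3, hd4⟩
    refine ⟨hc1.add hd1, fun σ τ => ?_, fun ι => ?_, fun p _ ι => ?_⟩
    · simp only [Pi.add_apply, hc2, hd2, map_add]; abel
    · obtain ⟨P, hP⟩ := hc3 ι
      obtain ⟨Q, hQ⟩ := hd3 ι
      refine ⟨P + Q, fun τ σ h => ?_⟩
      rw [Pi.add_apply, map_add, hP τ σ h, hQ τ σ h, map_add]; abel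
    · obtain ⟨P, hP⟩ := hc4 p ι
      obtain ⟨Q, hQ⟩ := hd4 p ι
      refine ⟨P + Q, fun τ σ h => ?_⟩
      rw [Pi.add_apply, map_add, hP τ σ h, hQ τ σ h, map_add]; abel
  neg_mem' := by
    rintro c ⟨hc1, hc2, hc3, hc4⟩
    refine ⟨hc1.neg, fun σ τ => ?_, fun ι => ?_, fun p _ ι => ?_⟩
    · simp only [Pi.neg_apply, hc2, map_neg]; abel
    · obtain ⟨P, hP⟩ := hc3 ι
      refine ⟨-P, fun τ σ h => ?_⟩
      rw [Pi.neg_apply, map_neg, hP τ σ h, map_neg]; abel
    · obtain ⟨P, hP⟩ := hc4 p ι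
      refine ⟨-P, fun τ σ h => ?_⟩
      rw [Pi.neg_apply, map_neg, hP τ σ h, map_neg]; abel

/-- The coboundaries. -/
noncomputable def coboundaries (E : WeierstrassCurve ℚ) : AddSubgroup (GQ → Pbar E) where
  carrier := {c | ∃ P, ∀ σ, c σ = act E σ P - P}
  zero_mem' := ⟨0, fun σ => by simp⟩
  add_mem' := by
    rintro c d ⟨P, hP⟩ ⟨Q, hQ⟩
    exact ⟨P + Q, fun σ => by rw [Pi.add_apply, hP, hQ, map_add]; abel⟩
  neg_mem' := by
    rintro c ⟨P, hP⟩
    exact ⟨-P, fun σ => by rw [Pi.neg_apply, hP, map_neg]; abel⟩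

/-- The Tate-Shafarevich group `Sha(E/ℚ) = ker (H¹(ℚ, E) → ∏_v H¹(ℚ_v, E))`. -/
abbrev Sha (E : WeierstrassCurve ℚ) : Type :=
  shaCocycles E ⧸ (coboundaries E).addSubgroupOf (shaCocycles E)

/-- The `p`-primary component `Sha(E/ℚ)[p^∞]`. -/
noncomputable def shaPrimary (E : WeierstrassCurve ℚ) (p : ℕ) : Type :=
  AddCommMonoid.primaryComponent (Sha E) p

/-- The `p`-part of the Birch and Swinnerton-Dyer leading term formula for `E` when the order of
vanishing and the rank are `0` (so that the regulator is `1`): the ratio of `L(E,1)` to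
`Ω · #Sha[p^∞] · ∏ c_ℓ / (#E(ℚ)_tors)²` is a rational number which is a unit at `p`. -/
def PPartRankZero (E : WeierstrassCurve ℚ) (L : ℂ → ℂ) (p : ℕ) : Prop :=
  ∃ ρ : ℚ, ρ ≠ 0 ∧ padicValRat p ρ = 0 ∧
    L 1 = (ρ : ℂ) * ((realPeriod E * (Nat.card (shaPrimary E p) : ℝ) * (tamagawaProduct E : ℝ) /
      (torsionOrder E : ℝ) ^ 2 : ℝ) : ℂ)

/-- The quadratic twist by `D = 4k + 1` of the curve `17a2`; a (minimal) equation of
`y² = x (x - D) (x - 17 D)`. -/
def tw (k : ℤ) : WeierstrassCurve ℚ where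
  a₁ := 1
  a₂ := -3 * k - 1
  a₃ := 1
  a₄ := -88 * k ^ 2 - 44 * k - 6
  a₆ := -240 * k ^ 3 - 180 * k ^ 2 - 45 * k - 4

end Vale.Agent.P014
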