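import Mathlib

/-!
# The matrices `N(T)` over the field with two elements
-/

namespace Vale.Agent.P014

/-- the matrix with off-diagonal entries `w p q` and row sums `0` -/
def Lap {I : Type*} [DecidableEq I] (w : I → I → ZMod 2) (T : Finset I) : Matrix T T (ZMod 2) :=
  Matrix.of fun p q => if p = q then ∑ r ∈ T.erase p, w p r else w p q

/-- the symmetric matrix `N(T)` -/
def NMat {I : Type*} [DecidableEq I] (s e : I → ZMod 2) (w : I → I → ZMod 2) (T : Finset I) :
    Matrix (T ⊕ T) (T ⊕ T) (ZMod 2) :=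
  Matrix.fromBlocks (Matrix.diagonal fun p => s p) (Lap w T) (Lap w T).transpose
    (Matrix.diagonal fun p => e p)

/-- `q* = ± q`, congruent to `1` modulo `4` -/
def qstar (q : ℕ) : ℤ := if q % 4 = 3 then -(q : ℤ) else q

/-- `[q* is a non-residue modulo p]` -/
def wP (p q : ℕ) : ZMod 2 := if jacobiSym (qstar q) p = -1 then 1 else 0

/-- `[q = 3 mod 4]` -/
def eP (q : ℕ) : ZMod 2 := if q % 4 = 3 then 1 else 0

/-- `[q is a non-residue modulo 17]` -/
def sP (q : ℕ) : ZMod 2 := if jacobiSym q 17 = -1 then 1 else 0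

/-- the matrix `N(n)` -/
def NP (n : ℕ) : Matrix (n.primeFactors ⊕ n.primeFactors) (n.primeFactors ⊕ n.primeFactors)
    (ZMod 2) :=
  NMat sP eP wP n.primeFactors

end Vale.Agent.P014
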